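import Vale.Agent.P025.H25.Final

open P025H25

universe u v w

/-- Sections of `Gal(maxUnr k K / K) → Gal(constClosure k K / k)` and functions with even
divisors. -/
theorem Vale.Agent.Results.P025.TwoAdicShadow.result :
    -- symbol rigidity over an arbitrary field of characteristic zero
    (∀ (k : Type u) (K : Type v) [Field k] [Field K] [Algebra k K] [CharZero k]
      (s : Section k K) (t : K) (ι : Type w) (e : ι → k), NonConst k t →
      (∀ i, IsEven k (t - algebraMap k K (e i))) → SymbolRigidity s e t) ∧
    (∀ (K : Type v) [Field K] [Algebra ℚ_[2] K],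
      -- covers of the line over `ℚ_[2]` with even ramification over `0, …, 8, ∞`
      SectionsLookLikePoints.{0, v, w} ℚ_[2] K (Finset.Icc 0 8) ∧
      SectionGivesPlace.{0, v, w} ℚ_[2] K (Finset.Icc 0 8) ∧
      ∀ (s : Section ℚ_[2] K) (t u : K), NonConst ℚ_[2] t →
        -- genus three hyperelliptic curves
        (∀ (A : Finset ℤ) (c : ℤ), A = {0, 1, 2, 3, 10, 12, 20} →
          c ∈ ({1, -1, 5, -5, 10} : Set ℤ) → (c : K) * u ^ 2 = ∏ a ∈ A, (t - (a : K)) →
            LooksLikePoint s A (fun _ : Unit => A) (fun _ => (c : ℚ_[2])) t (fun _ => u)) ∧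
        -- an explicit curve, and all curves dominating it, have no sections
        (∀ v : K, -2 * u ^ 2 = t * (t - 3) * (t - 4) →
          5 * v ^ 2 ≠ ∏ a ∈ Finset.range 9, (t - (a : K)))) := by
  refine ⟨?_, ?_⟩
  · intro k K _ _ _ _ s t ι e ht heven
    exact rigidity_final s t ht e heven
  · intro K _ _
    refine ⟨look_final, place_final, ?_⟩
    intro s t u ht
    refine ⟨?_, ?_⟩
    · rintro A c rfl hc hu
      exact genus_three_final s t ht c hc u hu
    · intro v hu hv
      exact no_section_example s.isSection t ht u v hu hv
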